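import Vale.Agent.P216I63.Defs
import Vale.Agent.P216Z57.Defs
import Vale.Agent.P255L9.Main

/-!
P216: solutions of the geodesic equation in charts are geodesics of the Levi-Civita connection.
-/

set_option maxSynthPendingDepth 3
set_option linter.unusedSectionVars false

open Manifold Set Filter Vale.Agent.P255L
open scoped ContDiff Topology
open Vale.Agent.P255 (chris toMetric cc)

namespace Vale.Agent.P216I

variable {E M : Type} [NormedAddCommGroup E] [NormedSpace ℝ E] [FiniteDimensional ℝ E]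
  [TopologicalSpace M] [ChartedSpace E M] [IsManifold 𝓘(ℝ, E) ∞ M]

theorem coef_eq (g : RMetric E M) (p : M) (u v : E) :
    P216Z57.coef g p u v = fun z => (toMetric g).coef p z u v := rfl

theorem crd_eq (p : M) (c : ℝ → M) : P216Z57.crd E p c = cc (E := E) c p := rfl

theorem fderiv_coef {G : E → E →L[ℝ] E →L[ℝ] ℝ} {z : E} (hG : DifferentiableAt ℝ G z)
    (u v w : E) : fderiv ℝ (fun z => G z u v) z w = fderiv ℝ G z w u v := by
  have h1 : HasFDerivAt (fun z => G z u v) _ z :=
    ((ContinuousLinearMap.apply ℝ ℝ v).comp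
      (ContinuousLinearMap.apply ℝ (E →L[ℝ] ℝ) u)).hasFDerivAt.comp z hG.hasFDerivAt
  rw [h1.fderiv]
  rfl

theorem geo_of {g : RMetric E M} {cov : Conn E M} (hc : IsLeviCivita g cov) {c : ℝ → M}
    (h : P216Z57.IsGeodesic g c) : IsGeodesic cov univ c := by
  obtain ⟨hs, he⟩ := h
  have hd : ∀ s, MDifferentiableWithinAt 𝓘(ℝ, ℝ) 𝓘(ℝ, E) c univ s := fun s =>
    ((hs s).mdifferentiableAt (by simp)).mdifferentiableWithinAt
  have e1 : ∀ (a : M) (s : ℝ), c s ∈ (chartAt E a).source →
      cp a (vel E univ c s) = deriv (cc (E := E) c a) s := fun a s ha =>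
    (hasDerivWithinAt_univ.1 (hasDeriv_cc ha (hd s))).deriv.symm
  have e2 : ∀ t, (fun s => cp (c t) (vel E univ c s)) =ᶠ[𝓝 t] deriv (cc (E := E) c (c t)) := by
    intro t
    filter_upwards [hs.continuous.continuousAt (ev_src (mem_chart_source E (c t)))] with s ha
    exact e1 _ s ha
  have sm : ∀ t, ContDiffAt ℝ ∞ (cc (E := E) c (c t)) t := fun t =>
    contMDiffAt_iff_contDiffAt.1 (contMDiffAt_iff_target.1 (hs t)).2
  have d2 : ∀ t, DifferentiableAt ℝ (deriv (cc (E := E) c (c t))) t := fun t =>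
    ((sm t).derivWithin (m := ∞) (by simp)).differentiableAt (by simp)
  refine ⟨diffAlong_of hs.continuous.continuousOn
    (fun t _ => ((sm t).differentiableAt (by simp)).differentiableWithinAt) (fun _ _ => rfl)
    (fun t _ => ((e2 t).differentiableAt_iff.2 (d2 t)).differentiableWithinAt), fun t _ => ?_⟩
  have ha := mem_chart_source E (c t)
  have hu : cc (E := E) c (c t) t ∈ (chartAt E (c t)).target := (chartAt E (c t)).map_source ha
  have hG := (toMetric g).isMetricOn (c t)
  have hD : DifferentiableAt ℝ ((toMetric g).coef (c t)) (cc (E := E) c (c t) t) :=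
    (hG.smooth.contDiffAt (hG.isOpen.mem_nhds hu)).differentiableAt (by simp)
  refine cp_inj ha ?_
  rw [hc.cp_covD_self, cp_zero ha, derivWithin_univ, (e2 t).deriv_eq, e1 _ t ha]
  refine hG.ext_of hu fun w => ?_
  have h1 := he t w
  unfold P216Z57.chr at h1
  simp only [coef_eq, crd_eq, fderiv_coef hD] at h1
  rw [map_add, add_apply, hG.chris_spec hu, h1]
  simp

theorem many {g : RMetric E M} (h : (P216Z57.images g).Infinite) : InfinitelyMany g := by
  intro cov hc
  refine h.mono ?_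
  rintro _ ⟨c, τ, ⟨h1, h2⟩, rfl⟩
  exact ⟨c, τ, ⟨h1.1, geo_of hc h1, h2⟩, rfl⟩

theorem sound [CompactSpace M] [T2Space M] (g : RMetric E M) : Sound g := by
  obtain ⟨cov₀, h0, h1, h2⟩ := P255L.main.2 E M g
  refine ⟨⟨cov₀, h0, h1⟩, fun cov hc => ⟨fun γ J K hJ hK t => ?_, fun cov' hc' Y p hY => ?_⟩⟩
  · obtain ⟨a, b, c⟩ := (h2 cov hc).2.1.2 univ uniqueDiffOn_univ γ J K hJ hK t trivial
    exact ⟨a, fun f f' hf => b f f' hf.hasDerivWithinAt, c⟩
  · rw [(h2 cov hc).1 Y p hY, (h2 cov' hc').1 Y p hY]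

end Vale.Agent.P216I
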