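import Vale.Agent.P216I63.St
import Vale.Agent.P216I63.Br

/-!
P216: the acceleration of a smooth curve, and the geodesics of the Levi-Civita connection.
-/

set_option maxSynthPendingDepth 3
set_option linter.unusedSectionVars false

open Manifold Set Filter
open scoped ContDiff Topology
open Vale.Agent.P255 (chris toMetric cc)
open Vale.Agent.P255L (cp cf hat covD cp_inj cp_eqL cp_add cp_cf cf_cp ev_src hat_self diffAt_iff
  diffAt_cf hasDeriv_cc)

namespace Vale.Agent.P216J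

variable {E M : Type} [NormedAddCommGroup E] [NormedSpace ℝ E] [FiniteDimensional ℝ E]
  [TopologicalSpace M] [ChartedSpace E M] [IsManifold 𝓘(ℝ, E) ∞ M]
  {g : Met 𝓘(ℝ, E) M} {D : Conn 𝓘(ℝ, E) M} {c : ℝ → M} {t : ℝ}

theorem lc_iff : IsLeviCivita g D ↔ P255L.IsLeviCivita g D :=
  ⟨fun h => ⟨(CovariantDerivative.torsion_eq_zero_iff D).2 fun hX hY => h.torsion _ _ _ hX hY,
    h.metric⟩, fun h => ⟨fun _ _ _ hX hY => h.tors hX hY, h.metric⟩⟩

theorem vel_eq (s : ℝ) : vel 𝓘(ℝ, E) c s = P255L.vel E univ c s := by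
  unfold vel P255L.vel app
  rw [mfderivWithin_univ]

theorem cp_comb {a q : M} (h : q ∈ (chartAt E a).source) {k : ℕ} (f : Fin k → ℝ)
    (v : Fin k → Tan 𝓘(ℝ, E) q) : cp a (comb f v) = ∑ i, f i • cp a (v i) := by
  unfold comb
  rw [cp_eqL h, map_sum]
  exact Finset.sum_congr rfl fun i _ => by rw [map_smul, cp_eqL h]

theorem md_of (hs : Smooth 𝓘(ℝ, E) c) (s : ℝ) :
    MDifferentiableWithinAt 𝓘(ℝ, ℝ) 𝓘(ℝ, E) c univ s :=
  ((hs s).mdifferentiableAt (by simp)).mdifferentiableWithinAt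

theorem ev_of (hs : Smooth 𝓘(ℝ, E) c) (t : ℝ) :
    ∀ᶠ s in 𝓝 t, c s ∈ (chartAt E (c t)).source :=
  (ContMDiff.continuous hs).continuousAt (ev_src (mem_chart_source E (c t)))

theorem acc_eq (hc : P255L.IsLeviCivita g D) (hs : Smooth 𝓘(ℝ, E) c) {w : Tan 𝓘(ℝ, E) (c t)}
    (h : IsAcc D c t w) : w = covD D univ c (P255L.vel E univ c) t := by
  obtain ⟨k, f, Y, hd, he, rfl⟩ := h
  have ha := mem_chart_source E (c t)
  have h0 := hasDerivWithinAt_univ.1 (hasDeriv_cc ha (md_of hs t))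
  have h1 : (fun s => cp (c t) (P255L.vel E univ c s)) =ᶠ[𝓝 t]
      fun s => ∑ i, f i s • hat (c t) (Y i) (cc c (c t) s) := by
    filter_upwards [he, ev_of hs t] with s e hs'
    rw [← vel_eq, e, cp_comb hs']
    exact Finset.sum_congr rfl fun i _ => congrArg _ (hat_self hs' _).symm
  have h2 : HasDerivAt (fun s => ∑ i, f i s • hat (c t) (Y i) (cc c (c t) s))
      (∑ i, (f i t • fderiv ℝ (hat (c t) (Y i)) (cc c (c t) t) (cp (c t) (P255L.vel E univ c t)) +
        deriv (f i) t • hat (c t) (Y i) (cc c (c t) t))) t :=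
    HasDerivAt.fun_sum fun i _ => by
      have e0 : DifferentiableAt ℝ (hat (c t) (Y i)) (cc c (c t) t) :=
        (diffAt_iff ha (Y i)).1 (hd i).2
      exact (hd i).1.hasDerivAt.smul (e0.hasFDerivAt.comp_hasDerivAt t h0)
  have h3 := h1.eq_of_nhds
  refine cp_inj ha ?_
  rw [hc.cp_covD_self, derivWithin_univ, h1.deriv_eq, h2.deriv, cp_add ha, cp_comb ha, cp_comb ha]
  have h4 : ∀ i, cp (c t) (nab D (Y i) (c t) (vel 𝓘(ℝ, E) c t)) =
      fderiv ℝ (hat (c t) (Y i)) (cc c (c t) t) (cp (c t) (P255L.vel E univ c t)) +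
        chris ((toMetric g).coef (c t)) (cc c (c t) t) (cp (c t) (P255L.vel E univ c t))
          (hat (c t) (Y i) (cc c (c t) t)) := fun i => by
    rw [vel_eq]
    exact (hc.cp_cov ha (hd i).2 _).trans (by rw [← hat_self ha (Y i)]; rfl)
  have h5 : ∀ i, cp (c t) (Y i (c t)) = hat (c t) (Y i) (cc c (c t) t) := fun i =>
    (hat_self ha (Y i)).symm
  have h6 : chris ((toMetric g).coef (c t)) (cc c (c t) t) (cp (c t) (P255L.vel E univ c t))
      (cp (c t) (P255L.vel E univ c t)) = ∑ i, f i t • chris ((toMetric g).coef (c t))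
        (cc c (c t) t) (cp (c t) (P255L.vel E univ c t)) (hat (c t) (Y i) (cc c (c t) t)) := by
    simp only [← P255.chrisB_apply, ← map_smul, ← map_sum]
    exact congrArg _ h3
  rw [h6]
  simp only [h4, h5, smul_add, Finset.sum_add_distrib]
  abel

theorem acc_ex (hs : Smooth 𝓘(ℝ, E) c) (t : ℝ) : ∃ w, IsAcc D c t w := by
  have ha := mem_chart_source E (c t)
  let b := Module.finBasis ℝ E
  have sm : ContDiffAt ℝ ∞ (cc (E := E) c (c t)) t :=
    contMDiffAt_iff_contDiffAt.1 (contMDiffAt_iff_target.1 (hs t)).2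
  have d2 : DifferentiableAt ℝ (deriv (cc (E := E) c (c t))) t :=
    (sm.derivWithin (m := ∞) (by simp)).differentiableAt (by simp)
  refine ⟨_, _, fun i s => b.coord i (deriv (cc (E := E) c (c t)) s), fun i => cf (c t) (b i),
    fun i => ⟨?_, diffAt_cf ha _⟩, ?_, rfl⟩
  · exact (LinearMap.toContinuousLinearMap (b.coord i)).differentiableAt.comp t d2
  · filter_upwards [ev_of hs t] with s hs'
    refine cp_inj hs' ?_
    rw [cp_comb hs', vel_eq, ← (hasDerivWithinAt_univ.1 (hasDeriv_cc hs' (md_of hs s))).deriv]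
    simp only [cp_cf hs', Module.Basis.coord_apply]
    exact (b.sum_repr _).symm

theorem many (h : (P216Z57.images g).Infinite) : InfinitelyMany g := by
  intro D hc
  refine h.mono ?_
  rintro _ ⟨c, τ, ⟨h1, h2⟩, rfl⟩
  refine ⟨c, τ, ⟨⟨h1.1, fun t => ?_⟩, h2⟩, rfl⟩
  obtain ⟨w, hw⟩ := acc_ex (D := D) (c := c) h1.1 t
  have h3 := (acc_eq (lc_iff.1 hc) h1.1 hw).trans
    ((P216I.geo_of (lc_iff.1 hc) h1).2 t trivial)
  exact h3 ▸ hw

theorem sound [T2Space M] (g : Met 𝓘(ℝ, E) M) : Sound g := by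
  obtain ⟨D₀, h0, -⟩ := P255L.exists_lc g
  refine ⟨⟨D₀, lc_iff.2 h0⟩, fun D hc => ⟨fun D' hc' Y x v hY => ?_, fun c hs t => ?_⟩⟩
  · exact congrArg (fun L => app L v) ((lc_iff.1 hc).uniq (lc_iff.1 hc') hY)
  · obtain ⟨w, hw⟩ := acc_ex (D := D) hs t
    exact ⟨w, hw, fun w' hw' =>
      (acc_eq (lc_iff.1 hc) hs hw').trans (acc_eq (lc_iff.1 hc) hs hw).symm⟩

end Vale.Agent.P216J
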