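import Vale.Agent.P216.H215.Monogenic
import Mathlib.Topology.Covering.Basic
import Mathlib.AlgebraicTopology.FundamentalGroupoid.FundamentalGroup
import Mathlib.Algebra.Group.Conj

/-!
# P216: compact covering spaces with a cohomology class which is not zero on a given space
-/

namespace Vale.Agent.P216J

open Vale.Agent.P216.ASCoh

/-- Some compact path connected Hausdorff covering space `N` of `M` has a fundamental group with
infinitely many conjugacy classes and a class in `H^j(N; k)`, `k` a field, whose pull back by some
continuous map `S → N` is not zero. -/
inductive Detects (S : Type) [TopologicalSpace S] (j : ℕ) (M : Type) [TopologicalSpace M] : Prop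
  | intro {N : Type} [TopologicalSpace N] [CompactSpace N] [T2Space N] [PathConnectedSpace N]
      (p : N → M) (hp : IsCoveringMap p) (y : N)
      (hy : Infinite (ConjClasses (FundamentalGroup N y)))
      {k : Type} [Field k] (U : Cochain N k j) (hU : IsCocycle U) (s : C(S, N))
      (hs : ¬ IsCobd (fun σ => U (fun i => s (σ i)) : Cochain S k j)) : Detects S j M

end Vale.Agent.P216J
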