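import Vale.Agent.P255L9.Defs
import Mathlib.Geometry.Manifold.Instances.Sphere

/-!
# P216: closed geodesics of the Levi-Civita connection. Only definitions.
-/

open Manifold Set Vale.Agent.P255L
open scoped ContDiff

namespace Vale.Agent.P216I

/-- The unit sphere `S^n` of `ℝ^(n+1)`. -/
abbrev Sph (n : ℕ) : Type := Metric.sphere (0 : EuclideanSpace ℝ (Fin (n + 1))) 1

variable {E M : Type} [NormedAddCommGroup E] [NormedSpace ℝ E] [FiniteDimensional ℝ E]
  [TopologicalSpace M] [ChartedSpace E M] [IsManifold 𝓘(ℝ, E) ∞ M]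

/-- A prime closed geodesic: a smooth nonconstant curve `c : ℝ → M` with `D_t c' = 0` and with
least period `τ > 0`. -/
def IsPrimeClosed (cov : Conn E M) (c : ℝ → M) (τ : ℝ) : Prop :=
  ContMDiff 𝓘(ℝ, ℝ) 𝓘(ℝ, E) ∞ c ∧ IsGeodesic cov univ c ∧ (∃ s t, c s ≠ c t) ∧ 0 < τ ∧
    Function.Periodic c τ ∧ ∀ σ : ℝ, 0 < σ → σ < τ → ¬ Function.Periodic c σ

/-- The set of the images of the prime closed geodesics. -/
def images (cov : Conn E M) : Set (Set M) := {S | ∃ c τ, IsPrimeClosed cov c τ ∧ S = range c}

/-- `covD` is the covariant derivative along curves: additive, Leibniz rule, and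
`D_t (X ∘ γ) = ∇_γ' X`. -/
def Rules (cov : Conn E M) : Prop :=
  ∀ (γ : ℝ → M) (J K : Along E γ), DiffAlong univ γ J → DiffAlong univ γ K → ∀ t : ℝ,
    covD cov univ γ (fun s => J s + K s) t = covD cov univ γ J t + covD cov univ γ K t ∧
    (∀ (f : ℝ → ℝ) (f' : ℝ), HasDerivAt f f' t →
      covD cov univ γ (fun s => f s • J s) t = f' • J t + f t • covD cov univ γ J t) ∧
    ∀ X : Field E M, DiffAt X (γ t) →
      covD cov univ γ (fun s => X (γ s)) t = cov X (γ t) (vel E univ γ t)

/-- The metric `g` has a smooth Levi-Civita connection, any two agree on differentiable fields,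
and `covD` obeys the rules above. -/
def Sound (g : RMetric E M) : Prop :=
  (∃ cov : Conn E M, IsLeviCivita g cov ∧ cov.ContMDiffCovariantDerivative ∞) ∧
    ∀ cov : Conn E M, IsLeviCivita g cov → Rules cov ∧ ∀ cov' : Conn E M, IsLeviCivita g cov' →
      ∀ (Y : Field E M) (p : M), DiffAt Y p → cov' Y p = cov Y p

/-- `(M, g)` has infinitely many prime closed geodesics with pairwise distinct images. -/
def InfinitelyMany (g : RMetric E M) : Prop :=
  ∀ cov : Conn E M, IsLeviCivita g cov → (images cov).Infinite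

end Vale.Agent.P216I
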