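import Mathlib.GroupTheory.Index
import Mathlib.GroupTheory.Solvable
import Mathlib.GroupTheory.HNNExtension
import Mathlib.GroupTheory.SpecificGroups.Dihedral
import Mathlib.Algebra.Group.Conj
import Mathlib.Data.Real.Basic

/-!
# P216: conditions on the fundamental group. Only definitions.
-/

namespace Vale.Agent.P216J

variable (Q : Type) [Group Q]

/-- The finite residual: the intersection of all subgroups of finite index. -/
def res : Subgroup Q := ⨅ (N : Subgroup Q) (_ : N.FiniteIndex), N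

/-- Every `q` is conjugate to a power `a ^ k` of one of finitely many elements `a`, with
`|k| ≤ l q`, where `l` is subadditive. -/
def Covered : Prop :=
  ∃ (F : Finset Q) (l : Q → ℝ), (∀ p q, l (p * q) ≤ l p + l q) ∧
    ∀ q : Q, ∃ a ∈ F, ∃ k : ℤ, |(k : ℝ)| ≤ l q ∧ IsConj q (a ^ k)

/-- `Q` is infinite, and it is neither `ℤ` nor the infinite dihedral group. -/
def Big : Prop := Infinite Q ∧ IsEmpty (Q ≃* Multiplicative ℤ) ∧ IsEmpty (Q ≃* DihedralGroup 0)

/-- If `Q` has a nonabelian simple normal subgroup `S` with trivial centralizer, then `Q ⧸ S` is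
solvable. -/
def OutSolvable : Prop :=
  ∀ (S : Subgroup Q) (_ : S.Normal), IsSimpleGroup S → (∃ x y : S, x * y ≠ y * x) →
    Subgroup.centralizer (S : Set Q) = ⊥ → Group.IsSolvable (Q ⧸ S)

/-- All finite quotients of `Q` are `OutSolvable`. -/
def Schreier : Prop := ∀ (N : Subgroup Q) (_ : N.Normal), N.FiniteIndex → OutSolvable (Q ⧸ N)

/-- `Q` has finite solvable quotients of unbounded order. -/
def ManySolvable : Prop :=
  ∀ n : ℕ, ∃ (N : Subgroup Q) (_ : N.Normal), N.FiniteIndex ∧ n ≤ N.index ∧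
    Group.IsSolvable (Q ⧸ N)

/-- `Q` maps onto an HNN extension with two proper associated subgroups. -/
def OntoHNN : Prop :=
  ∃ (G : Type) (_ : Group G) (A B : Subgroup G) (φ : A ≃* B) (p : Q →* HNNExtension G A B φ),
    Function.Surjective p ∧ A ≠ ⊤ ∧ B ≠ ⊤

/-- `Q` has a proper subgroup of finite index. -/
def HasProper : Prop := ∃ K : Subgroup Q, K.FiniteIndex ∧ K ≠ ⊤

/-- The four classes of groups which force infinitely many closed geodesics. -/
def Wide : Prop :=
  ¬ Covered Q ∨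
  (Big Q ∧ ∃ H : Subgroup Q, H.FiniteIndex ∧ ∀ K : Subgroup Q, K ≤ H → ⁅K, K⁆ = K → K = ⊥) ∨
  (∃ H : Subgroup Q, H.FiniteIndex ∧ OntoHNN H) ∨
  (((∀ H : Subgroup Q, H.FiniteIndex → Schreier H) ∨
      ∃ H : Subgroup Q, H.FiniteIndex ∧ ManySolvable H) ∧
    ((∃ _ : (res Q).Normal, Big (Q ⧸ res Q)) ∨ ⁅res Q, res Q⁆ ≠ res Q ∨ HasProper (res Q)))

end Vale.Agent.P216J
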