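import Mathlib.Geometry.Manifold.VectorBundle.CovariantDerivative.Basic
import Mathlib.Geometry.Manifold.VectorBundle.Riemannian
import Mathlib.Geometry.Manifold.VectorField.LieBracket
import Mathlib.Geometry.Manifold.Instances.Sphere
import Mathlib.Analysis.Calculus.Deriv.Basic

/-!
# P216: the Levi-Civita connection and its closed geodesics. Only definitions.
-/

open Manifold Bundle Set Filter VectorField
open scoped ContDiff Topology

noncomputable section

namespace Vale.Agent.P216J

/-- The unit sphere `S^n` of `ℝ^(n+1)`. -/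
abbrev Sph (n : ℕ) : Type := Metric.sphere (0 : EuclideanSpace ℝ (Fin (n + 1))) 1

section Linear

variable {V W : Type} [AddCommGroup V] [Module ℝ V] [AddCommGroup W] [Module ℝ W]

/-- `∑ aᵢ vᵢ` -/
def comb {k : ℕ} (a : Fin k → ℝ) (v : Fin k → V) : V := ∑ i, a i • v i

variable [TopologicalSpace V] [TopologicalSpace W]

/-- `L v` -/
def app (L : V →L[ℝ] W) (v : V) : W := L v

/-- `B (v, w)` -/
def app2 (B : V →L[ℝ] V →L[ℝ] ℝ) (v w : V) : ℝ := B v w

end Linear

variable {E H : Type} [NormedAddCommGroup E] [NormedSpace ℝ E] [TopologicalSpace H]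
  (I : ModelWithCorners ℝ E H) {M : Type} [TopologicalSpace M] [ChartedSpace H M]

/-- the tangent space at `x` -/
abbrev Tan (x : M) : Type := TangentSpace I x

/-- `c` is a smooth curve. -/
def Smooth (c : ℝ → M) : Prop := ContMDiff 𝓘(ℝ, ℝ) I ∞ c

/-- the velocity `c'(t)` -/
def vel (c : ℝ → M) (t : ℝ) : Tan I (c t) := app (mfderiv 𝓘(ℝ, ℝ) I c t) (1 : ℝ)

/-- the derivative `v f` of the function `f` in the direction `v` -/
def dir (f : M → ℝ) (x : M) (v : Tan I x) : ℝ := app (mvfderiv I f x) v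

variable (M)

/-- vector fields -/
abbrev Fld : Type := (x : M) → Tan I x

variable [IsManifold I ∞ M]

/-- smooth Riemannian metrics -/
abbrev Met : Type := ContMDiffRiemannianMetric I ∞ E (Tan I : M → Type)

/-- connections on the tangent bundle -/
abbrev Conn : Type := CovariantDerivative I E (Tan I : M → Type)

variable {I M}

/-- the scalar product `g(v, w)` at `x` -/
def ip (g : Met I M) (x : M) (v w : Tan I x) : ℝ := app2 (g.inner x) v w

/-- `∇_v Y` -/
def nab (D : Conn I M) (Y : Fld I M) (x : M) (v : Tan I x) : Tan I x := app (D Y x) v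

/-- The field `X` is differentiable at `x`. -/
def DiffAt (X : Fld I M) (x : M) : Prop :=
  MDifferentiableAt I I.tangent (fun y => (⟨y, X y⟩ : TangentBundle I M)) x

/-- A Levi-Civita connection of `g`: `∇_X Y - ∇_Y X = [X, Y]` and
`v g(Y, Z) = g(∇_v Y, Z) + g(Y, ∇_v Z)`. -/
structure IsLeviCivita (g : Met I M) (D : Conn I M) : Prop where
  torsion : ∀ (X Y : Fld I M) (x : M), DiffAt X x → DiffAt Y x →
    nab D Y x (X x) - nab D X x (Y x) = mlieBracket I X Y x
  metric : ∀ (Y Z : Fld I M) (x : M), DiffAt Y x → DiffAt Z x → ∀ v : Tan I x,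
    dir I (fun y => ip g y (Y y) (Z y)) x v =
      ip g x (nab D Y x v) (Z x) + ip g x (Y x) (nab D Z x v)

/-- `w` is the acceleration `D_t c'` at time `t`: `c' = ∑ fᵢ Yᵢ` along `c` near `t`, and
`w = ∑ fᵢ' Yᵢ + ∑ fᵢ ∇_c' Yᵢ`. -/
def IsAcc (D : Conn I M) (c : ℝ → M) (t : ℝ) (w : Tan I (c t)) : Prop :=
  ∃ (k : ℕ) (f : Fin k → ℝ → ℝ) (Y : Fin k → Fld I M),
    (∀ i, DifferentiableAt ℝ (f i) t ∧ DiffAt (Y i) (c t)) ∧
    (∀ᶠ s in 𝓝 t, vel I c s = comb (fun i => f i s) fun i => Y i (c s)) ∧
    w = comb (fun i => deriv (f i) t) (fun i => Y i (c t)) +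
      comb (fun i => f i t) fun i => nab D (Y i) (c t) (vel I c t)

/-- A geodesic: a smooth curve with `D_t c' = 0`. -/
def IsGeodesic (D : Conn I M) (c : ℝ → M) : Prop := Smooth I c ∧ ∀ t, IsAcc D c t 0

/-- A prime closed geodesic: a nonconstant geodesic with least period `τ > 0`. -/
def IsPrimeClosed (D : Conn I M) (c : ℝ → M) (τ : ℝ) : Prop :=
  IsGeodesic D c ∧ (∃ s t, c s ≠ c t) ∧ 0 < τ ∧ Function.Periodic c τ ∧
    ∀ σ : ℝ, 0 < σ → σ < τ → ¬ Function.Periodic c σ

/-- The set of the images of the prime closed geodesics. -/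
def images (D : Conn I M) : Set (Set M) := {S | ∃ c τ, IsPrimeClosed D c τ ∧ S = range c}

/-- `g` has a Levi-Civita connection, any two agree on differentiable fields, and smooth curves
have one and only one acceleration at each time. -/
def Sound (g : Met I M) : Prop :=
  (∃ D, IsLeviCivita g D) ∧ ∀ D, IsLeviCivita g D →
    (∀ D', IsLeviCivita g D' → ∀ Y x v, DiffAt Y x → nab D' Y x v = nab D Y x v) ∧
      ∀ c, Smooth I c → ∀ t, ∃! w, IsAcc D c t w

/-- `(M, g)` has infinitely many prime closed geodesics with pairwise distinct images. -/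
def InfinitelyMany (g : Met I M) : Prop := ∀ D, IsLeviCivita g D → (images D).Infinite

end Vale.Agent.P216J
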