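import Vale.Agent.P216I63.Grp
import Vale.Agent.P216I63.Coh
import Vale.Agent.P216Z57.Main
import Vale.Agent.P216.R2.H189.Main3
import Vale.Agent.P216.H215.Resid

/-!
P216: fundamental groups with a wide quotient.
-/

open Manifold
open scoped ContDiff

namespace Vale.Agent.P216J

open Vale.Agent.P216

theorem false_of_wide {Q : Type} [Group Q] [Group.FG Q] (hQ : T1.SFCC Q) (h : Wide Q) : False := by
  classical
  rcases h with h | ⟨⟨h1, h2, h3⟩, h⟩ | h | ⟨hs, ⟨_, h1, h2, h3⟩ | h | h⟩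
  · obtain ⟨r, a, l, hl, hc⟩ := hQ
    refine h ⟨Finset.univ.image a, l, hl, fun q => ?_⟩
    obtain ⟨i, k, e1, e2⟩ := hc q
    exact ⟨a i, Finset.mem_image_of_mem a (Finset.mem_univ i), k, e2, e1⟩
  · exact R2.H189.V3.false_of_sfcc hQ (Or.inl (Or.inl ⟨h1, h2, h3, h⟩))
  · exact R2.H189.V3.false_of_sfcc hQ (Or.inr h)
  · have hR : ¬ (finiteResidual Q).FiniteIndex := fun hR => by
      have : (res Q).FiniteIndex := hR
      exact not_finite (Q ⧸ res Q)
    rcases RFS.residual_quotient hQ hR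
      (hs.imp_left fun h U hU N hN hN0 S hS hs hnc hz => h U ⟨hU⟩ N hN ⟨hN0⟩ S hS hs hnc hz)
      with ⟨⟨e⟩⟩ | ⟨⟨e⟩⟩
    · exact h2.false e
    · exact h3.false e
  · exact R2.H189.V3.false_of_sfcc hQ (Or.inl (Or.inr ⟨Or.inl h, hs⟩))
  · exact R2.H189.V3.false_of_sfcc hQ (Or.inl (Or.inr ⟨Or.inr h, hs⟩))

variable {E M : Type} [NormedAddCommGroup E] [NormedSpace ℝ E] [FiniteDimensional ℝ E]
  [TopologicalSpace M] [T2Space M] [CompactSpace M] [ChartedSpace E M]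
  [IsManifold 𝓘(ℝ, E) ∞ M] (g : P216Z57.Met E M)

theorem wide (x₀ : M) {Q : Type} [Group Q] (f : FundamentalGroup M x₀ →* Q)
    (hf : Function.Surjective f) (h : Wide Q) : (P216Z57.images g).Infinite := by
  have := ChartedSpace.locallyConnectedSpace E M
  refine P216Z57.infinite_comp g x₀ fun N _ _ _ _ _ _ _ ⟨e⟩ => ?_
  obtain ⟨y₀, ⟨φ⟩⟩ := P216Z57.pi1_equiv x₀ e
  intro hfin
  have hs : Function.Surjective (f.comp φ.toMonoidHom) := hf.comp φ.surjective
  have h0 : Group.FG (FundamentalGroup N y₀) := R2.H189.fg_fundamentalGroup E y₀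
  have h1 : Group.FG Q := Group.fg_of_surjective hs
  exact false_of_wide (R2.H189.sfcc_map (sfcc_fundamentalGroup E N y₀ hfin) _ hs) h

theorem sphc (hn : 2 ≤ Module.finrank ℝ E) {n : ℕ} (h2 : 2 ≤ n)
    (h : Detects (P216Z57.Sph n) n M) :
    (P216Z57.images g).Infinite := by
  have := ChartedSpace.locallyConnectedSpace E M
  obtain ⟨m, rfl⟩ : ∃ m, n = m + 2 := ⟨n - 2, by omega⟩
  obtain ⟨p, hp, y, hy, U, hU, s, hs⟩ := h
  refine P216Z57.infinite_comp g (p y) fun N _ _ _ _ _ _ _ ⟨e⟩ => ?_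
  obtain ⟨q, hq⟩ := P216Z57.cover_comp hp y e
  exact P216M.main_old E hn (q y) (Or.inr (Or.inr (Or.inr ⟨q, hq, y, hy, U, hU, s, hs⟩)))

end Vale.Agent.P216J
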